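import Vale.Agent.P329.H559.C2.Defs
import Vale.Agent.P329.Bdl.B2

/-!
# P329 / the pair counts of letters are known
-/

set_option linter.all false

namespace Vale.Agent.P329.H487

open Vale.Agent.P329 Vale.Agent.P329.H559.C2

variable {A : Type}

open Classical in
theorem ct_snoc (a : A) (w : List A) (x : A) :
    ct a (w ++ [x]) = ct a w + if x = a then 1 else 0 := by
  induction w with
  | nil =>
    show (if x = a then (1 : ℤ) else 0) + 0 = 0 + if x = a then (1 : ℤ) else 0
    rw [add_zero, zero_add]
  | cons y w ih =>
    show (if y = a then (1 : ℤ) else 0) + ct a (w ++ [x]) =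
      ((if y = a then (1 : ℤ) else 0) + ct a w) + if x = a then (1 : ℤ) else 0
    rw [ih, add_assoc]

open Classical in
theorem pcA_snoc (a b : A) (w : List A) (k : ℤ) (x : A) :
    pcA a b k (w ++ [x]) = pcA a b k w + if x = b then k + ct a w else 0 := by
  induction w generalizing k with
  | nil =>
    show (if x = b then k else 0) + 0 = 0 + if x = b then k + (0 : ℤ) else 0
    rw [add_zero, zero_add, add_zero]
  | cons y w ih =>
    show (if y = b then k else 0) + pcA a b (k + if y = a then 1 else 0) (w ++ [x]) =
      ((if y = b then k else 0) + pcA a b (k + if y = a then 1 else 0) w) +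
        if x = b then k + ((if y = a then (1 : ℤ) else 0) + ct a w) else 0
    rw [ih, add_assoc, add_assoc]

theorem ct_eq (a : A) (w : List A) : ct a w = ctp (fun x => x = a) w := by
  induction w using List.reverseRecOn with
  | nil => rfl
  | append_singleton w x ih => rw [ct_snoc, ctp_snoc, ih]

open Classical in
theorem pc_snoc (a b : A) (w : List A) (x : A) :
    pc a b (w ++ [x]) = pc a b w + if x = b then ct a w else 0 := by
  unfold pc
  rw [pcA_snoc, zero_add]

theorem pc_eq (a b : A) (w : List A) :
    pc a b w = acc b (fun u => ctp (fun x => x = a) u) w := by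
  induction w using List.reverseRecOn with
  | nil => rfl
  | append_singleton w x ih => rw [pc_snoc, acc_snoc, ih, ct_eq]

theorem two_pc (a : A) (w : List A) : 2 * pc a a w = ct a w * ct a w - ct a w := by
  classical
  induction w using List.reverseRecOn with
  | nil => rfl
  | append_singleton w x ih =>
    rw [pc_snoc, ct_snoc]
    by_cases h : x = a
    · rw [if_pos h, if_pos h]
      linear_combination ih
    · rw [if_neg h, if_neg h]
      linear_combination ih

theorem ct_known [Finite A] (a : A) : KnZ fun w : List A => ct a w :=
  (known_ctp a).congr fun w => ct_eq a w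

/-- **pair counts of letters are known** -/
theorem pairH (A : Type) [Finite A] (a b : A) : KnZ fun w : List A => pc a b w := by
  by_cases h : a = b
  · subst h
    refine KnZ.div (c := 2) two_pos ?_
    exact (((ct_known a).mul (ct_known a)).sub (ct_known a)).congr fun w => by
      rw [Nat.cast_ofNat]
      exact two_pc a w
  · exact (known_acc_id (p := fun x => x = a) (y := b) fun h' => h h'.symm).congr
      fun w => pc_eq a b w

end Vale.Agent.P329.H487
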